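import Vale.Agent.P079.FDD

/-!
B-convex spaces with a suppression-1 unconditional decomposition.
-/

open Filter Topology Metric Set

namespace Vale.Agent.P079

variable {X : Type*} [NormedAddCommGroup X] [NormedSpace ℝ X]

/-- Iteration of the B-convexity inequality. -/
theorem iterate_signs (m : ℕ) (hm : 1 ≤ m) (δ : ℝ) (hδ : δ < 1)
    (hB : ∀ v : Fin m → X, (∀ i, ‖v i‖ ≤ 1) → ∃ ε : Fin m → ℝ,
      (∀ i, ε i = 1 ∨ ε i = -1) ∧ ‖∑ i, ε i • v i‖ ≤ m * (1 - δ)) :
    ∀ (L : ℕ) (v : Fin (m ^ L) → X), (∀ i, ‖v i‖ ≤ 1) → ∃ ε : Fin (m ^ L) → ℝ,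
      (∀ i, ε i = 1 ∨ ε i = -1) ∧ ‖∑ i, ε i • v i‖ ≤ ((m : ℝ) * (1 - δ)) ^ L := by
  intro L
  induction L with
  | zero =>
    intro v hv
    refine ⟨fun _ => 1, fun _ => Or.inl rfl, ?_⟩
    calc ‖∑ i, (1 : ℝ) • v i‖ ≤ ∑ _i : Fin (m ^ 0), (1 : ℝ) :=
          norm_sum_le_of_le _ fun i _ => by simpa using hv i
      _ = ((m : ℝ) * (1 - δ)) ^ 0 := by
          rw [Finset.sum_const, Finset.card_univ, Fintype.card_fin, pow_zero, pow_zero, one_smul]
  | succ L ih =>
    intro v hv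
    let e : Fin m × Fin (m ^ L) ≃ Fin (m ^ (L + 1)) :=
      finProdFinEquiv.trans (finCongr (by rw [pow_succ, mul_comm]))
    choose ε hε hsum using fun a : Fin m => ih (fun b => v (e (a, b))) (fun b => hv _)
    set c : ℝ := ((m : ℝ) * (1 - δ)) ^ L with hc_def
    have hm' : (0 : ℝ) < m := by exact_mod_cast hm
    have hc : 0 < c := pow_pos (mul_pos hm' (by linarith)) L
    obtain ⟨η, hη, hηsum⟩ := hB (fun a => c⁻¹ • ∑ b, ε a b • v (e (a, b))) (fun a => by
      rw [norm_smul, norm_inv, Real.norm_of_nonneg hc.le, inv_mul_le_iff₀ hc, mul_one]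
      exact hsum a)
    refine ⟨fun i => η (e.symm i).1 * ε (e.symm i).1 (e.symm i).2, fun i => ?_, ?_⟩
    · rcases hη (e.symm i).1 with h | h <;> rcases hε (e.symm i).1 (e.symm i).2 with h' | h' <;>
        simp [h, h']
    · rw [← e.sum_comp, Fintype.sum_prod_type]
      simp only [Equiv.symm_apply_apply]
      have key : ∑ a, ∑ b, (η a * ε a b) • v (e (a, b)) =
          c • ∑ a, η a • (c⁻¹ • ∑ b, ε a b • v (e (a, b))) := by
        rw [Finset.smul_sum]
        refine Finset.sum_congr rfl fun a _ => ?_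
        rw [smul_comm c (η a), smul_smul c, mul_inv_cancel₀ hc.ne', one_smul, Finset.smul_sum]
        simp only [smul_smul]
      rw [key, norm_smul, Real.norm_of_nonneg hc.le]
      exact (mul_le_mul_of_nonneg_left hηsum hc.le).trans_eq (pow_succ _ _).symm

/-- In a B-convex space large tuples in the unit ball have small signed sums. -/
theorem exists_small_signs
    (hB : ∃ (m : ℕ) (δ : ℝ), 1 ≤ m ∧ 0 < δ ∧ ∀ v : Fin m → X, (∀ i, ‖v i‖ ≤ 1) →
      ∃ ε : Fin m → ℝ, (∀ i, ε i = 1 ∨ ε i = -1) ∧ ‖∑ i, ε i • v i‖ ≤ m * (1 - δ)) :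
    ∃ (k : ℕ) (c : ℝ), c < (k : ℝ) / 2 ∧ ∀ v : Fin k → X, (∀ i, ‖v i‖ ≤ 1) →
      ∃ ε : Fin k → ℝ, (∀ i, ε i = 1 ∨ ε i = -1) ∧ ‖∑ i, ε i • v i‖ ≤ c := by
  obtain ⟨m, δ₀, hm, hδ₀, hB⟩ := hB
  set δ := min δ₀ (1 / 2) with hδ_def
  have hδ : 0 < δ := lt_min hδ₀ (by norm_num)
  have hδ1 : δ ≤ 1 / 2 := min_le_right _ _
  have hm' : (0 : ℝ) < m := by exact_mod_cast hm
  have hB' : ∀ v : Fin m → X, (∀ i, ‖v i‖ ≤ 1) →
      ∃ ε : Fin m → ℝ, (∀ i, ε i = 1 ∨ ε i = -1) ∧ ‖∑ i, ε i • v i‖ ≤ m * (1 - δ) := by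
    intro v hv
    obtain ⟨ε, h1, h2⟩ := hB v hv
    refine ⟨ε, h1, h2.trans (mul_le_mul_of_nonneg_left ?_ hm'.le)⟩
    linarith [min_le_left δ₀ (1 / 2)]
  obtain ⟨L, hL⟩ := exists_pow_lt_of_lt_one (show (0 : ℝ) < 1 / 4 by norm_num)
    (show 1 - δ < 1 by linarith)
  refine ⟨m ^ L, ((m : ℝ) * (1 - δ)) ^ L, ?_, iterate_signs m hm δ (by linarith) hB' L⟩
  rw [mul_pow, Nat.cast_pow, div_eq_mul_inv]
  exact mul_lt_mul_of_pos_left (hL.trans (by norm_num)) (pow_pos hm' L)

/-- Reflexive spaces with a suppression-1 unconditional decomposition and small signed sums of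
spread-out blocks have the FPP. -/
theorem fixedPoint_of_suppression [CompleteSpace X]
    (href : Function.Surjective (NormedSpace.inclusionInDoubleDual ℝ X))
    (e : ℕ → X →L[ℝ] X) (hfin : ∀ i, FiniteDimensional ℝ (LinearMap.range (e i : X →ₗ[ℝ] X)))
    (horth : ∀ i j x, e i (e j x) = if i = j then e j x else 0)
    (hexp : ∀ x, Tendsto (fun n => ∑ i ∈ Finset.range n, e i x) atTop (𝓝 x))
    (hsup : ∀ (A : Finset ℕ) x, ‖∑ i ∈ A, e i x‖ ≤ ‖x‖)
    (hsup' : ∀ (A : Finset ℕ) x, ‖x - ∑ i ∈ A, e i x‖ ≤ ‖x‖)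
    (k p₀ : ℕ) (g : ℕ → ℕ) (c : ℝ) (hck : c < (k : ℝ) / 2)
    (hsmall : ∀ p q : Fin k → ℕ, (∀ j, p₀ ≤ p j) → (∀ j, p j ≤ q j) →
      (∀ i j, i < j → q i ≤ p j ∧ g (q i) ≤ p j) → ∀ v : Fin k → X, (∀ j, ‖v j‖ ≤ 1) →
      (∀ j, ∑ i ∈ Finset.Ico (p j) (q j), e i (v j) = v j) →
      ∃ ε : Fin k → ℝ, (∀ j, ε j = 1 ∨ ε j = -1) ∧ ‖∑ j, ε j • v j‖ ≤ c)
    (C : Set X) (hCne : C.Nonempty) (hCcl : IsClosed C) (hCb : Bornology.IsBounded C)
    (hCconv : Convex ℝ C) (T : X → X) (hT : MapsTo T C C)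
    (hne : ∀ x ∈ C, ∀ y ∈ C, ‖T x - T y‖ ≤ ‖x - y‖) :
    ∃ x ∈ C, T x = x := by
  have hc0 : 0 ≤ c := by
    let t : ℕ → ℕ := fun n => Nat.rec p₀ (fun _ x => max x (g x)) n
    have ht : Monotone t := monotone_nat_of_le_succ fun n => le_max_left _ _
    obtain ⟨ε, -, hε⟩ := hsmall (fun j => t j) (fun j => t j) (fun j => ht (Nat.zero_le _))
      (fun _ => le_rfl)
      (fun i j (hij : (i : ℕ) < j) => ⟨ht hij.le, (le_max_right _ _).trans (ht hij)⟩)
      0 (fun _ => by simp) (fun _ => by simp)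
    exact (norm_nonneg _).trans hε
  have hk : 1 ≤ k := by
    rcases Nat.eq_zero_or_pos k with h | h
    · rw [h, Nat.cast_zero, zero_div] at hck; linarith
    · exact h
  let P : ℕ → X →L[ℝ] X := fun n => ∑ i ∈ Finset.range n, e i
  have hPapp : ∀ n x, P n x = ∑ i ∈ Finset.range n, e i x := fun n x => by simp [P]
  have hD : ∀ p q, p ≤ q → ∀ x, P q x - P p x = ∑ i ∈ Finset.Ico p q, e i x := fun p q h x => by
    rw [hPapp, hPapp, Finset.sum_Ico_eq_sub _ h]
  have hcut : ∀ (A B : Finset ℕ) x, ∑ i ∈ A, e i (∑ j ∈ B, e j x) = ∑ i ∈ A ∩ B, e i x := by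
    intro A B x
    simp only [map_sum, horth, Finset.sum_ite_eq]
    rw [Finset.sum_ite_mem]
  have hPfin : ∀ n, FiniteDimensional ℝ (LinearMap.range (P n : X →ₗ[ℝ] X)) := by
    intro n
    refine Submodule.finiteDimensional_of_le
      (S₂ := (Finset.range n).sup fun i => LinearMap.range (e i : X →ₗ[ℝ] X)) ?_
    rintro _ ⟨z, rfl⟩
    change P n z ∈ _
    rw [hPapp]
    exact Submodule.sum_mem _ fun i hi =>
      Finset.le_sup (f := fun i => LinearMap.range (e i : X →ₗ[ℝ] X)) hi (LinearMap.mem_range_self _ z)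
  have hkR : (1 : ℝ) ≤ k := by exact_mod_cast hk
  refine fixedPoint_of_blocks href P hPfin ?_ ?_ 1 1 (k - ((k : ℝ) / 2 - c) / 2) k p₀ g zero_le_one zero_le_one hk
    ?_ ?_ ?_ ?_ C hCne hCcl hCb hCconv T hT hne
  · intro a b x
    simp only [hPapp]
    rw [hcut, Finset.range_inter_range]
  · intro x; simpa only [hPapp] using hexp x
  · intro p q _ hpq x; rw [hD p q hpq, one_mul]; exact hsup _ x
  · intro p q _ hpq x; rw [hD p q hpq, one_mul]; exact hsup' _ x
  · intro p q hp₀ hpq hord v hv hfix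
    by_contra hbig
    push Not at hbig
    obtain ⟨φ, hφ, hφv⟩ := exists_dual_vector'' ℝ (∑ j, v j)
    have hφle : ∀ z, φ z ≤ ‖z‖ := fun z =>
      (le_abs_self _).trans (((φ.le_opNorm z).trans
        (mul_le_mul_of_nonneg_right hφ (norm_nonneg _))).trans_eq (one_mul _))
    have hφv' : φ (∑ j, v j) = ‖∑ j, v j‖ := hφv
    obtain ⟨ε, hε, hεsum⟩ := hsmall p q ‹_› hpq hord v hv
      (fun j => by rw [← hD _ _ (hpq j), hfix])
    set u := ∑ j, ε j • v j with hu
    let J : Fin k → Finset ℕ := fun j => Finset.Ico (p j) (q j)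
    have hJ : ∀ i j, i ≠ j → Disjoint (J i) (J j) := by
      intro i j hij
      simp only [J, Finset.disjoint_left, Finset.mem_Ico]
      rcases lt_or_gt_of_ne hij with h | h <;> intro z <;> have := (hord _ _ h).1 <;> omega
    have hvJ : ∀ j, v j = ∑ i ∈ J j, e i (v j) := fun j => by rw [← hD _ _ (hpq j), hfix]
    -- both parts of the signed sum are nearly as long as their cardinality
    have hpart : ∀ (S : Finset (Fin k)) (sg : ℝ), (sg = 1 ∨ sg = -1) → (∀ j ∈ S, ε j = sg) →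
        (S.card : ℝ) - ((k : ℝ) / 2 - c) / 2 ≤ ‖u‖ := by
      intro S sg hc hSc
      have hQv : ∀ j, ∑ i ∈ S.biUnion J, e i (v j) = if j ∈ S then v j else 0 := by
        intro j
        rw [hvJ j, hcut]
        split_ifs with h
        · rw [Finset.inter_eq_right.mpr (Finset.subset_biUnion_of_mem J h)]
        · have : Disjoint (S.biUnion J) (J j) := by
            rw [Finset.disjoint_biUnion_left]
            exact fun i hi => hJ i j fun hij => h (hij ▸ hi)
          rw [Finset.disjoint_iff_inter_eq_empty.mp this, Finset.sum_empty]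
      have hQu : ∑ i ∈ S.biUnion J, e i u = sg • ∑ j ∈ S, v j := by
        simp only [hu, map_sum, map_smul]
        rw [Finset.sum_comm]
        simp only [← Finset.smul_sum, hQv, smul_ite, smul_zero, Finset.sum_ite_mem,
          Finset.univ_inter]
        rw [Finset.smul_sum]
        exact Finset.sum_congr rfl fun j hj => by rw [hSc j hj]
      have h1 : ‖∑ j ∈ S, v j‖ ≤ ‖u‖ := by
        have := hsup (S.biUnion J) u
        rw [hQu, norm_smul] at this
        rcases hc with rfl | rfl <;> simpa using this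
      have h2 : φ (∑ j, v j) ≤ φ (∑ j ∈ S, v j) + ((k : ℝ) - S.card) := by
        rw [← Finset.sum_add_sum_compl S v, map_add]
        refine add_le_add le_rfl ((hφle _).trans ((norm_sum_le_of_le _ fun j _ => hv j).trans
          (le_of_eq ?_)))
        rw [Finset.sum_const, Finset.card_compl, Fintype.card_fin, nsmul_eq_mul, mul_one,
          Nat.cast_sub ((Finset.card_le_univ S).trans_eq (Fintype.card_fin k))]
      linarith [hφle (∑ j ∈ S, v j)]
    have hplus := hpart (Finset.univ.filter fun j => ε j = 1) 1 (Or.inl rfl)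
      (fun j hj => (Finset.mem_filter.mp hj).2)
    have hminus := hpart (Finset.univ.filter fun j => ¬ ε j = 1) (-1) (Or.inr rfl)
      (fun j hj => (hε j).resolve_left (Finset.mem_filter.mp hj).2)
    have hcard : ((Finset.univ.filter fun j => ε j = 1).card : ℝ) +
        (Finset.univ.filter fun j => ¬ ε j = 1).card = k := by
      rw [← Nat.cast_add, Finset.card_filter_add_card_filter_not, Finset.card_univ,
        Fintype.card_fin]
    linarith
  · rw [one_mul, mul_one]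
    have hgap : 0 < ((k : ℝ) / 2 - c) / 2 := by linarith
    have : ((k : ℝ) - ((k : ℝ) / 2 - c) / 2) / k < 1 := by
      rw [div_lt_one (by linarith)]
      linarith
    linarith

end Vale.Agent.P079
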