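import Mathlib

/-!
Tools for metric fixed point theory in reflexive Banach spaces: ultrafilter weak limits,
minimal invariant sets, the lemma of Goebel and Karlovitz, and resolvents.
-/

open Filter Topology Metric Set

namespace Vale.Agent.P079

variable {X : Type*} [NormedAddCommGroup X] [NormedSpace ℝ X]

/-- Ultrafilter weak limits of bounded families in a reflexive space. -/
theorem exists_weakLim (href : Function.Surjective (NormedSpace.inclusionInDoubleDual ℝ X))
    {ι : Type*} (U : Ultrafilter ι) (y : ι → X) (M : ℝ) (hy : ∀ i, ‖y i‖ ≤ M) :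
    ∃ L : X, ∀ φ : StrongDual ℝ X, Tendsto (fun i => φ (y i)) U (𝓝 (φ L)) := by
  have hex : ∀ φ : StrongDual ℝ X, ∃ l : ℝ, |l| ≤ M * ‖φ‖ ∧
      Tendsto (fun i => φ (y i)) U (𝓝 l) := by
    intro φ
    have hb : ∀ i, φ (y i) ∈ Icc (-(M * ‖φ‖)) (M * ‖φ‖) := by
      intro i
      have h1 : ‖φ (y i)‖ ≤ M * ‖φ‖ := by
        calc ‖φ (y i)‖ ≤ ‖φ‖ * ‖y i‖ := φ.le_opNorm _
          _ ≤ ‖φ‖ * M := by gcongr; exact hy i
          _ = M * ‖φ‖ := mul_comm _ _
      rw [Real.norm_eq_abs] at h1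
      exact abs_le.mp h1
    obtain ⟨l, hl, hlim⟩ := isCompact_Icc.ultrafilter_le_nhds (U.map fun i => φ (y i))
      (by
        rw [Ultrafilter.coe_map, le_principal_iff, Filter.mem_map]
        exact Filter.univ_mem' hb)
    exact ⟨l, abs_le.mpr hl, hlim⟩
  choose l hl hlim using hex
  let Ψ₀ : StrongDual ℝ X →ₗ[ℝ] ℝ :=
    { toFun := l
      map_add' := fun φ ψ => tendsto_nhds_unique (hlim (φ + ψ))
        (by simpa using (hlim φ).add (hlim ψ))
      map_smul' := fun c φ => tendsto_nhds_unique (hlim (c • φ))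
        (by simpa using (hlim φ).const_mul c) }
  let Ψ : StrongDual ℝ (StrongDual ℝ X) := Ψ₀.mkContinuous M (fun φ => by
    simpa [Ψ₀, Real.norm_eq_abs] using hl φ)
  obtain ⟨L, hL⟩ := href Ψ
  refine ⟨L, fun φ => ?_⟩
  have : φ L = l φ := by
    rw [← NormedSpace.dual_def ℝ X L φ, hL]
    rfl
  rw [this]
  exact hlim φ

/-- A weak limit stays in a closed convex set that eventually contains the family. -/
theorem weakLim_mem {ι : Type*} {U : Ultrafilter ι} {y : ι → X} {L : X}
    (hL : ∀ φ : StrongDual ℝ X, Tendsto (fun i => φ (y i)) U (𝓝 (φ L)))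
    {C : Set X} (hc : IsClosed C) (hconv : Convex ℝ C) (hev : ∀ᶠ i in (U : Filter ι), y i ∈ C) :
    L ∈ C := by
  by_contra h
  obtain ⟨f, u, hu, hb⟩ := geometric_hahn_banach_point_closed hconv hc h
  have : u ≤ f L := ge_of_tendsto (hL f) (hev.mono fun i hi => (hb _ hi).le)
  linarith

/-- Finite-rank operators turn weak convergence into norm convergence. -/
theorem tendsto_of_finiteRank {ι : Type*} {U : Filter ι} {y : ι → X} {L : X}
    (hL : ∀ φ : StrongDual ℝ X, Tendsto (fun i => φ (y i)) U (𝓝 (φ L)))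
    (D : X →L[ℝ] X) [FiniteDimensional ℝ (LinearMap.range (D : X →ₗ[ℝ] X))] :
    Tendsto (fun i => D (y i)) U (𝓝 (D L)) := by
  let E := LinearMap.range (D : X →ₗ[ℝ] X)
  let D' : X →L[ℝ] E := D.codRestrict E (fun x => LinearMap.mem_range_self _ x)
  let b := Module.finBasis ℝ E
  let φ : Fin (Module.finrank ℝ E) → StrongDual ℝ X :=
    fun i => (LinearMap.toContinuousLinearMap (b.coord i)).comp D'
  have key : ∀ x, D x = ∑ i, φ i x • (b i : X) := by
    intro x
    calc D x = ((∑ i, b.repr (D' x) i • b i : E) : X) := by rw [b.sum_repr]; rfl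
      _ = _ := by rw [Submodule.coe_sum]; rfl
  rw [key L]
  simp only [key]
  exact tendsto_finsetSum _ fun i _ => (hL (φ i)).smul_const _

/-- A minimal nonempty closed convex invariant subset. -/
theorem exists_minimal_invariant
    (href : Function.Surjective (NormedSpace.inclusionInDoubleDual ℝ X))
    (C : Set X) (hne : C.Nonempty) (hcl : IsClosed C) (hb : Bornology.IsBounded C)
    (hconv : Convex ℝ C) (T : X → X) (hT : MapsTo T C C) :
    ∃ K ⊆ C, K.Nonempty ∧ IsClosed K ∧ Convex ℝ K ∧ MapsTo T K K ∧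
      ∀ K' ⊆ K, K'.Nonempty → IsClosed K' → Convex ℝ K' → MapsTo T K' K' → K' = K := by
  let S : Set (Set X) :=
    {K | K ⊆ C ∧ K.Nonempty ∧ IsClosed K ∧ Convex ℝ K ∧ MapsTo T K K}
  obtain ⟨M, hM⟩ := hb.exists_norm_le
  have hchain : ∀ c ⊆ S, IsChain (· ⊆ ·) c → c.Nonempty → ∃ lb ∈ S, ∀ s ∈ c, lb ⊆ s := by
    intro c hcS hc hcne
    have : Nonempty c := hcne.to_subtype
    have hpt : ∀ s : c, ∃ x, x ∈ (s : Set X) := fun s => (hcS s.2).2.1
    choose x hx using hpt
    have hdir : Directed (· ≥ ·) (fun s : c => 𝓟 {t : c | (t : Set X) ⊆ s}) := by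
      intro s t
      rcases hc.total s.2 t.2 with h | h
      · exact ⟨s, le_refl _, principal_mono.mpr fun r (hr : (r : Set X) ⊆ s) => hr.trans h⟩
      · exact ⟨t, principal_mono.mpr fun r (hr : (r : Set X) ⊆ t) => hr.trans h, le_refl _⟩
    have : NeBot (⨅ s : c, 𝓟 {t : c | (t : Set X) ⊆ s}) :=
      iInf_neBot_of_directed' hdir (fun s => principal_neBot_iff.mpr ⟨s, Subset.rfl⟩)
    let U := Ultrafilter.of (⨅ s : c, 𝓟 {t : c | (t : Set X) ⊆ s})
    obtain ⟨L, hL⟩ := exists_weakLim href U x M fun s => hM _ ((hcS s.2).1 (hx s))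
    have hmem : ∀ s : c, L ∈ (s : Set X) := by
      intro s
      refine weakLim_mem hL (hcS s.2).2.2.1 (hcS s.2).2.2.2.1 ?_
      have hle : (U : Filter c) ≤ 𝓟 {t : c | (t : Set X) ⊆ s} :=
        (Ultrafilter.of_le _).trans (iInf_le _ s)
      exact hle (mem_principal.mpr fun t ht => ht (hx t))
    refine ⟨⋂₀ c, ⟨?_, ⟨L, fun s hs => hmem ⟨s, hs⟩⟩, ?_, ?_, ?_⟩, fun s hs => sInter_subset_of_mem hs⟩
    · obtain ⟨s, hs⟩ := hcne
      exact (sInter_subset_of_mem hs).trans (hcS hs).1
    · exact isClosed_sInter fun s hs => (hcS hs).2.2.1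
    · exact convex_sInter fun s hs => (hcS hs).2.2.2.1
    · exact fun z hz s hs => (hcS hs).2.2.2.2 (hz s hs)
  obtain ⟨K, hKC, hK⟩ := zorn_superset_nonempty S hchain C ⟨Subset.rfl, hne, hcl, hconv, hT⟩
  obtain ⟨h1, h2, h3, h4, h5⟩ := hK.prop
  exact ⟨K, h1, h2, h3, h4, h5, fun K' h hn hc hv hi =>
    hK.eq_of_subset ⟨h.trans h1, hn, hc, hv, hi⟩ h⟩

variable {K : Set X} {T : X → X}

/-- In a minimal invariant set no point has radius below the diameter. -/
theorem diam_le_of_radius (hcl : IsClosed K) (hconv : Convex ℝ K) (hKT : MapsTo T K K)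
    (hmin : ∀ K' ⊆ K, K'.Nonempty → IsClosed K' → Convex ℝ K' → MapsTo T K' K' → K' = K)
    (hne : ∀ x ∈ K, ∀ y ∈ K, ‖T x - T y‖ ≤ ‖x - y‖)
    {r : ℝ} {c : X} (hc : c ∈ K) (hr : ∀ y ∈ K, ‖c - y‖ ≤ r) : diam K ≤ r := by
  have hr0 : 0 ≤ r := by simpa using hr c hc
  have hsub : closure (convexHull ℝ (T '' K)) ⊆ K :=
    closure_minimal (convexHull_min (image_subset_iff.mpr hKT) hconv) hcl
  have hhull : closure (convexHull ℝ (T '' K)) = K := by
    refine hmin _ hsub ?_ isClosed_closure (convex_convexHull ℝ _).closure ?_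
    · exact ⟨T c, subset_closure (subset_convexHull ℝ _ (mem_image_of_mem T hc))⟩
    · intro z hz
      exact subset_closure (subset_convexHull ℝ _ (mem_image_of_mem T (hsub hz)))
  let S := K ∩ ⋂ y ∈ K, closedBall y r
  have hS : S = K := by
    refine hmin S inter_subset_left ⟨c, hc, ?_⟩ ?_ ?_ ?_
    · simpa [dist_eq_norm] using hr
    · exact hcl.inter (isClosed_biInter fun _ _ => isClosed_closedBall)
    · exact hconv.inter (convex_iInter₂ fun _ _ => convex_closedBall _ _)
    · rintro z ⟨hzK, hz⟩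
      refine ⟨hKT hzK, ?_⟩
      have hz' : T '' K ⊆ closedBall (T z) r := by
        rintro _ ⟨y, hy, rfl⟩
        rw [mem_closedBall, dist_eq_norm]
        have := mem_iInter₂.mp hz y hy
        rw [mem_closedBall, dist_eq_norm, norm_sub_rev] at this
        exact (hne y hy z hzK).trans this
      have hall : K ⊆ closedBall (T z) r := hhull ▸
        closure_minimal (convexHull_min hz' (convex_closedBall _ _)) isClosed_closedBall
      refine mem_iInter₂.mpr fun y hy => ?_
      exact mem_closedBall_comm.mp (hall hy)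
  refine diam_le_of_forall_dist_le hr0 fun x hx y hy => ?_
  have hx' : x ∈ S := hS.symm ▸ hx
  exact mem_closedBall.mp (mem_iInter₂.mp hx'.2 y hy)

/-- The Goebel–Karlovitz lemma. -/
theorem goebel_karlovitz (href : Function.Surjective (NormedSpace.inclusionInDoubleDual ℝ X))
    (hcl : IsClosed K) (hb : Bornology.IsBounded K) (hconv : Convex ℝ K) (hKT : MapsTo T K K)
    (hmin : ∀ K' ⊆ K, K'.Nonempty → IsClosed K' → Convex ℝ K' → MapsTo T K' K' → K' = K)
    (hne : ∀ x ∈ K, ∀ y ∈ K, ‖T x - T y‖ ≤ ‖x - y‖)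
    {c₀ : X} (hc₀ : c₀ ∈ K) {ε : ℝ} (hε : 0 < ε) :
    ∃ δ > 0, ∀ w ∈ K, ‖T w - w‖ ≤ δ → diam K - ε ≤ ‖w - c₀‖ := by
  by_contra h
  push Not at h
  choose w hwK hwT hwc using fun n : ℕ =>
    h (1 / ((n : ℝ) + 1)) (by positivity)
  obtain ⟨U, hU⟩ := Ultrafilter.exists_le (atTop : Filter ℕ)
  obtain ⟨M, hM⟩ := hb.exists_norm_le
  have hsmall : Tendsto (fun n => ‖T (w n) - w n‖) U (𝓝 0) :=
    (squeeze_zero (fun n => norm_nonneg _) hwT tendsto_one_div_add_atTop_nhds_zero_nat).mono_left hU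
  let r := diam K - ε
  let S : Set X := {c | c ∈ K ∧ ∀ e > (0 : ℝ), ∀ᶠ n in (U : Filter ℕ), ‖w n - c‖ ≤ r + e}
  have hS : S = K := by
    refine hmin S (fun c hc => hc.1) ⟨c₀, hc₀, fun e he => ?_⟩ ?_ ?_ ?_
    · exact Eventually.of_forall fun n => by
        have := hwc n; simp only [r]; linarith
    · refine isClosed_of_closure_subset fun c hc => ⟨?_, fun e he => ?_⟩
      · exact hcl.closure_subset (closure_mono (fun z hz => hz.1) hc)
      · obtain ⟨z, hz, hzc⟩ := Metric.mem_closure_iff.mp hc (e / 2) (half_pos he)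
        filter_upwards [hz.2 (e / 2) (half_pos he)] with n hn
        rw [dist_eq_norm] at hzc
        have := norm_sub_le_norm_sub_add_norm_sub (w n) z c
        rw [norm_sub_rev z c] at this
        linarith
    · intro a ha b hb' α β hα hβ hαβ
      refine ⟨hconv ha.1 hb'.1 hα hβ hαβ, fun e he => ?_⟩
      filter_upwards [ha.2 e he, hb'.2 e he] with n h1 h2
      have : w n - (α • a + β • b) = α • (w n - a) + β • (w n - b) := by
        rw [smul_sub, smul_sub]
        nth_rewrite 1 [← one_smul ℝ (w n)]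
        rw [← hαβ, add_smul]
        abel
      rw [this]
      calc ‖α • (w n - a) + β • (w n - b)‖ ≤ α * ‖w n - a‖ + β * ‖w n - b‖ := by
            refine (norm_add_le _ _).trans (le_of_eq ?_)
            rw [norm_smul, norm_smul, Real.norm_of_nonneg hα, Real.norm_of_nonneg hβ]
        _ ≤ α * (r + e) + β * (r + e) := by gcongr
        _ = r + e := by rw [← add_mul, hαβ, one_mul]
    · intro c hc
      refine ⟨hKT hc.1, fun e he => ?_⟩
      filter_upwards [hc.2 (e / 2) (half_pos he),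
        hsmall.eventually (eventually_le_nhds (half_pos he))] with n h1 h2
      have := norm_sub_le_norm_sub_add_norm_sub (w n) (T (w n)) (T c)
      rw [norm_sub_rev (w n) (T (w n))] at this
      linarith [hne (w n) (hwK n) c hc.1]
  obtain ⟨y, hy⟩ := exists_weakLim href U w M fun n => hM _ (hwK n)
  have hyK : y ∈ K := weakLim_mem hy hcl hconv (Eventually.of_forall hwK)
  have hrad : ∀ c ∈ K, ‖y - c‖ ≤ r := by
    intro c hc
    refine le_of_forall_pos_le_add fun e he => ?_
    have hc' : c ∈ S := hS.symm ▸ hc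
    have : y ∈ closedBall c (r + e) := weakLim_mem hy isClosed_closedBall (convex_closedBall _ _)
      ((hc'.2 e he).mono fun n hn => by simpa [dist_eq_norm] using hn)
    simpa [dist_eq_norm] using this
  have := diam_le_of_radius hcl hconv hKT hmin hne hyK hrad
  simp only [r] at this
  linarith

/-- Resolvents of a nonexpansive self-map. -/
theorem exists_resolvent [CompleteSpace X] (hcl : IsClosed K) (hconv : Convex ℝ K)
    (hKT : MapsTo T K K) (hne : ∀ x ∈ K, ∀ y ∈ K, ‖T x - T y‖ ≤ ‖x - y‖)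
    {s : ℝ} (hs : 0 < s) (hs1 : s ≤ 1) :
    ∃ R : X → X, MapsTo R K K ∧
      (∀ a ∈ K, ∀ b ∈ K, ‖R a - R b‖ ≤ ‖a - b‖) ∧
      (∀ a ∈ K, ‖T (R a) - R a‖ ≤ s * ‖T (R a) - a‖) ∧
      (∀ a ∈ K, s * ‖R a - a‖ ≤ ‖T a - a‖) := by
  have hex : ∀ c, ∃ z, c ∈ K → z ∈ K ∧ z = s • c + (1 - s) • T z := by
    intro c
    by_cases hc : c ∈ K
    swap
    · exact ⟨c, fun h => absurd h hc⟩
    have : Nonempty K := ⟨⟨c, hc⟩⟩
    have : CompleteSpace K := hcl.completeSpace_coe
    let g : K → K := fun z => ⟨s • c + (1 - s) • T z,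
      hconv hc (hKT z.2) hs.le (sub_nonneg.mpr hs1) (by ring)⟩
    have hg : ContractingWith (1 - s).toNNReal g := by
      refine ⟨?_, LipschitzWith.of_dist_le_mul fun a b => ?_⟩
      · rw [Real.toNNReal_lt_one]; linarith
      · rw [Real.coe_toNNReal _ (sub_nonneg.mpr hs1), Subtype.dist_eq, Subtype.dist_eq,
          dist_eq_norm, dist_eq_norm]
        simp only [g, add_sub_add_left_eq_sub, ← smul_sub, norm_smul,
          Real.norm_of_nonneg (sub_nonneg.mpr hs1)]
        gcongr
        exact hne _ a.2 _ b.2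
    refine ⟨(hg.fixedPoint : K), fun _ => ⟨Subtype.prop _, ?_⟩⟩
    exact (congrArg Subtype.val hg.fixedPoint_isFixedPt).symm
  choose R hR using hex
  refine ⟨R, fun a ha => (hR a ha).1, fun a ha b hb => ?_, fun a ha => ?_, fun a ha => ?_⟩
  · have hA := (hR a ha).2
    have hB := (hR b hb).2
    have : R a - R b = s • (a - b) + (1 - s) • (T (R a) - T (R b)) := by
      conv_lhs => rw [hA, hB]
      module
    have h1 : ‖R a - R b‖ ≤ s * ‖a - b‖ + (1 - s) * ‖R a - R b‖ := by
      calc ‖R a - R b‖ = ‖s • (a - b) + (1 - s) • (T (R a) - T (R b))‖ := by rw [this]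
        _ ≤ s * ‖a - b‖ + (1 - s) * ‖T (R a) - T (R b)‖ := by
            refine (norm_add_le _ _).trans (le_of_eq ?_)
            rw [norm_smul, norm_smul, Real.norm_of_nonneg hs.le,
              Real.norm_of_nonneg (sub_nonneg.mpr hs1)]
        _ ≤ _ := by
            gcongr
            exact hne _ (hR a ha).1 _ (hR b hb).1
    nlinarith
  · have hA := (hR a ha).2
    have : T (R a) - R a = s • (T (R a) - a) := by
      nth_rewrite 2 [hA]
      module
    rw [this, norm_smul, Real.norm_of_nonneg hs.le]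
  · have hA := (hR a ha).2
    have : R a - a = (1 - s) • (T (R a) - a) := by
      nth_rewrite 1 [hA]
      module
    have h1 : ‖R a - a‖ = (1 - s) * ‖T (R a) - a‖ := by
      rw [this, norm_smul, Real.norm_of_nonneg (sub_nonneg.mpr hs1)]
    have h2 : ‖T (R a) - a‖ ≤ ‖R a - a‖ + ‖T a - a‖ :=
      (norm_sub_le_norm_sub_add_norm_sub _ (T a) _).trans
        (by linarith [hne _ (hR a ha).1 a ha])
    nlinarith [norm_nonneg (T a - a), norm_nonneg (R a - a)]

end Vale.Agent.P079
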