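import Mathlib

/-!
Notions used in the statement on the fixed point property.
-/

open Filter Topology

universe u

namespace Vale.Agent.P079

variable (X : Type u) [NormedAddCommGroup X] [NormedSpace ℝ X]

/-- The fixed point property for nonexpansive maps. -/
def HasFPP : Prop :=
  ∀ C : Set X, C.Nonempty → IsClosed C → Bornology.IsBounded C → Convex ℝ C →
    ∀ T : X → X, Set.MapsTo T C C → (∀ x ∈ C, ∀ y ∈ C, ‖T x - T y‖ ≤ ‖x - y‖) →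
      ∃ x ∈ C, T x = x

/-- Reflexivity: the canonical map into the bidual is onto. -/
def IsReflexiveSpace : Prop :=
  Function.Surjective (NormedSpace.inclusionInDoubleDual ℝ X)

/-- B-convexity. -/
def IsBConvex : Prop :=
  ∃ (m : ℕ) (δ : ℝ), 1 ≤ m ∧ 0 < δ ∧ ∀ v : Fin m → X, (∀ i, ‖v i‖ ≤ 1) →
    ∃ ε : Fin m → ℝ, (∀ i, ε i = 1 ∨ ε i = -1) ∧ ‖∑ i, ε i • v i‖ ≤ m * (1 - δ)

variable {X}

/-- Partial sum projections of a finite-dimensional decomposition. -/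
def IsFDD (P : ℕ → X →L[ℝ] X) : Prop :=
  (∀ n, FiniteDimensional ℝ (LinearMap.range (P n : X →ₗ[ℝ] X))) ∧
    (∀ m n x, P m (P n x) = P (min m n) x) ∧
    (∀ x, Tendsto (fun n => P n x) atTop (𝓝 x))

/-- Bounds `a`, `b` on the interval projections beyond `p₀` and on their complements. -/
def IntervalBounds (P : ℕ → X →L[ℝ] X) (a b : ℝ) (p₀ : ℕ) : Prop :=
  (∀ p q, p₀ ≤ p → p ≤ q → ∀ x, ‖P q x - P p x‖ ≤ a * ‖x‖) ∧
    (∀ p q, p₀ ≤ p → p ≤ q → ∀ x, ‖x - (P q x - P p x)‖ ≤ b * ‖x‖)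

/-- `σ` bounds the sums of `k` successive blocks of norm at most one that are spread out
according to the gap function `g` beyond `p₀`. -/
def BlockSumBound (P : ℕ → X →L[ℝ] X) (g : ℕ → ℕ) (k p₀ : ℕ) (σ : ℝ) : Prop :=
  ∀ p q : Fin k → ℕ, (∀ j, p₀ ≤ p j) → (∀ j, p j ≤ q j) →
    (∀ i j, i < j → q i ≤ p j ∧ g (q i) ≤ p j) → ∀ v : Fin k → X,
    (∀ j, ‖v j‖ ≤ 1) → (∀ j, P (q j) (v j) - P (p j) (v j) = v j) → ‖∑ j, v j‖ ≤ σ

/-- Coordinate projections of a suppression-1 unconditional finite-dimensional decomposition. -/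
def IsSuppressionOneFDD (e : ℕ → X →L[ℝ] X) : Prop :=
  (∀ i, FiniteDimensional ℝ (LinearMap.range (e i : X →ₗ[ℝ] X))) ∧
    (∀ i j x, e i (e j x) = if i = j then e j x else 0) ∧
    (∀ x, Tendsto (fun n => ∑ i ∈ Finset.range n, e i x) atTop (𝓝 x)) ∧
    (∀ (A : Finset ℕ) x, ‖∑ i ∈ A, e i x‖ ≤ ‖x‖) ∧
    (∀ (A : Finset ℕ) x, ‖x - ∑ i ∈ A, e i x‖ ≤ ‖x‖)

/-- Some `k` spread-out blocks of norm at most one always have a signed sum below `c < k / 2`. -/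
def HasSmallBlockSigns (e : ℕ → X →L[ℝ] X) : Prop :=
  ∃ (k p₀ : ℕ) (g : ℕ → ℕ) (c : ℝ), c < (k : ℝ) / 2 ∧
    ∀ p q : Fin k → ℕ, (∀ j, p₀ ≤ p j) → (∀ j, p j ≤ q j) →
      (∀ i j, i < j → q i ≤ p j ∧ g (q i) ≤ p j) → ∀ v : Fin k → X, (∀ j, ‖v j‖ ≤ 1) →
      (∀ j, ∑ i ∈ Finset.Ico (p j) (q j), e i (v j) = v j) →
      ∃ ε : Fin k → ℝ, (∀ j, ε j = 1 ∨ ε j = -1) ∧ ‖∑ j, ε j • v j‖ ≤ c

end Vale.Agent.P079
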