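import Vale.Agent.P079.Basic

/-!
The fixed point property for reflexive spaces with a finite-dimensional decomposition
satisfying a quantitative condition on successive blocks.
-/

open Filter Topology Metric Set

namespace Vale.Agent.P079

variable {X : Type*} [NormedAddCommGroup X] [NormedSpace ℝ X]

/-- The iterated ultrafilter on tuples. -/
noncomputable def tupleUltrafilter (U : Ultrafilter ℕ) : (m : ℕ) → Ultrafilter (Fin m → ℕ)
  | 0 => pure Fin.elim0
  | m + 1 => Ultrafilter.bind U fun a => (tupleUltrafilter U m).map (Fin.cons a)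

theorem mem_tupleUltrafilter_succ (U : Ultrafilter ℕ) (m : ℕ) (E : Set (Fin (m + 1) → ℕ)) :
    E ∈ tupleUltrafilter U (m + 1) ↔ {a | Fin.cons a ⁻¹' E ∈ tupleUltrafilter U m} ∈ U :=
  Iff.rfl

/-- Selection of indices and successive blocks. -/
theorem select (href : Function.Surjective (NormedSpace.inclusionInDoubleDual ℝ X))
    (P : ℕ → X →L[ℝ] X) (hfin : ∀ n, FiniteDimensional ℝ (LinearMap.range (P n : X →ₗ[ℝ] X)))
    (hP : ∀ x, Tendsto (fun n => P n x) atTop (𝓝 x))
    (U : Ultrafilter ℕ) (y : ℕ → X)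
    (hy : ∀ φ : StrongDual ℝ X, Tendsto (fun i => φ (y i)) U (𝓝 (φ 0)))
    (G : Set ℕ) (hG : G ∈ U) (η : ℝ) (hη : 0 < η) (g : ℕ → ℕ) :
    ∀ (m p₀ : ℕ) (F : Fin m → (Fin m → ℕ) → X) (M : ℝ), (∀ j n, ‖F j n‖ ≤ M) →
      (∀ j n a, F j (Function.update n j a) = F j n) →
      ∀ E ∈ tupleUltrafilter U m, ∃ n ∈ E, ∃ p q : Fin m → ℕ,
        (∀ j, p₀ ≤ p j) ∧ (∀ j, p j ≤ q j) ∧ (∀ i j, i < j → q i ≤ p j ∧ g (q i) ≤ p j) ∧
        ∀ j, n j ∈ G ∧ ‖P (p j) (y (n j))‖ ≤ η ∧ ‖y (n j) - P (q j) (y (n j))‖ ≤ η ∧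
          ‖P (q j) (F j n) - P (p j) (F j n)‖ ≤ 3 * η := by
  intro m
  induction m with
  | zero =>
    intro p₀ F M _ _ E hE
    obtain ⟨n, hn⟩ := Ultrafilter.nonempty_of_mem hE
    exact ⟨n, hn, Fin.elim0, Fin.elim0, fun j => j.elim0, fun j => j.elim0, fun j => j.elim0,
      fun j => j.elim0⟩
  | succ m ih =>
    intro p₀ F M hM hind E hE
    let f₀ : (Fin m → ℕ) → X := fun r => F 0 (Fin.cons 0 r)
    have hf₀ : ∀ a r, F 0 (Fin.cons a r) = f₀ r := by
      intro a r
      have := hind 0 (Fin.cons a r) 0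
      rw [Fin.update_cons_zero] at this
      exact this.symm
    obtain ⟨L, hL⟩ := exists_weakLim href (tupleUltrafilter U m) f₀ M fun r => hM _ _
    have hnear : ∀ x : X, ∀ᶠ r in (atTop : Filter ℕ), ‖x - P r x‖ ≤ η := by
      intro x
      filter_upwards [(hP x).eventually (closedBall_mem_nhds x hη)] with r hr
      rw [dist_eq_norm, norm_sub_rev] at hr
      exact hr
    obtain ⟨p₁', hp₁'⟩ := eventually_atTop.mp (hnear L)
    let p₁ := max p₀ p₁'
    have := hfin p₁
    have hsmall : {a | ‖P p₁ (y a)‖ ≤ η} ∈ U := by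
      have h := (tendsto_of_finiteRank hy (P p₁)).eventually (closedBall_mem_nhds _ hη)
      simp only [map_zero, dist_zero_right] at h
      exact h
    obtain ⟨a, ⟨haE, haG⟩, ha⟩ := Ultrafilter.nonempty_of_mem
      (inter_mem (inter_mem ((mem_tupleUltrafilter_succ U m E).mp hE) hG) hsmall)
    obtain ⟨q₁', hq₁'⟩ := eventually_atTop.mp (hnear (y a))
    let q₁ := max p₁ q₁'
    have := hfin q₁
    have hclose : {r | ‖P q₁ (f₀ r) - P p₁ (f₀ r)‖ ≤ 3 * η} ∈ tupleUltrafilter U m := by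
      have hD := ((tendsto_of_finiteRank hL (P q₁)).sub
        (tendsto_of_finiteRank hL (P p₁))).eventually (closedBall_mem_nhds _ hη)
      refine hD.mono fun r hr => ?_
      rw [dist_eq_norm] at hr
      have h1 := hp₁' p₁ (le_max_right _ _)
      have h2 := hp₁' q₁ ((le_max_right _ _).trans (le_max_left _ _))
      have h3 : ‖P q₁ L - P p₁ L‖ ≤ 2 * η := by
        have := norm_sub_le_norm_sub_add_norm_sub (P q₁ L) L (P p₁ L)
        rw [norm_sub_rev (P q₁ L) L] at this
        linarith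
      have := norm_le_norm_sub_add (P q₁ (f₀ r) - P p₁ (f₀ r)) (P q₁ L - P p₁ L)
      linarith
    obtain ⟨r, ⟨hrE, hr⟩, p, q, hp, hpq, hord, hj⟩ := ih (max q₁ (g q₁))
      (fun j r => F j.succ (Fin.cons a r)) M (fun j r => hM _ _)
      (fun j r b => by rw [Fin.cons_update]; exact hind _ _ _)
      _ (inter_mem haE hclose)
    refine ⟨Fin.cons a r, hrE, Fin.cons p₁ p, Fin.cons q₁ q, ?_, ?_, ?_, ?_⟩
    · intro j
      refine Fin.cases ?_ (fun i => ?_) j
      · exact le_max_left p₀ p₁'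
      · simpa using ((le_max_left p₀ p₁').trans (le_max_left p₁ q₁')).trans
          ((le_max_left q₁ (g q₁)).trans (hp i))
    · intro j
      refine Fin.cases ?_ (fun i => ?_) j
      · exact le_max_left p₁ q₁'
      · simpa using hpq i
    · intro i j hij
      obtain ⟨j', rfl⟩ := Fin.exists_succ_eq.mpr (Fin.ne_zero_of_lt hij)
      refine Fin.cases (fun _ => ?_) (fun i' h => ?_) i hij
      · simpa using And.intro ((le_max_left q₁ (g q₁)).trans (hp j'))
          ((le_max_right q₁ (g q₁)).trans (hp j'))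
      · simpa using hord i' j' (Fin.succ_lt_succ_iff.mp h)
    · intro j
      refine Fin.cases ?_ (fun i => ?_) j
      · simp only [Fin.cons_zero]
        refine ⟨haG, ha, hq₁' q₁ (le_max_right _ _), ?_⟩
        rw [hf₀]
        exact hr
      · simpa using hj i

/-- The fixed point theorem for decompositions with the block condition. -/
theorem fixedPoint_of_blocks [CompleteSpace X]
    (href : Function.Surjective (NormedSpace.inclusionInDoubleDual ℝ X))
    (P : ℕ → X →L[ℝ] X) (hfin : ∀ n, FiniteDimensional ℝ (LinearMap.range (P n : X →ₗ[ℝ] X)))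
    (hcomm : ∀ m n x, P m (P n x) = P (min m n) x)
    (hP : ∀ x, Tendsto (fun n => P n x) atTop (𝓝 x))
    (a b σ : ℝ) (k p₀ : ℕ) (g' : ℕ → ℕ) (ha : 0 ≤ a) (hb : 0 ≤ b) (hk : 1 ≤ k)
    (hPa : ∀ p q, p₀ ≤ p → p ≤ q → ∀ x, ‖P q x - P p x‖ ≤ a * ‖x‖)
    (hPb : ∀ p q, p₀ ≤ p → p ≤ q → ∀ x, ‖x - (P q x - P p x)‖ ≤ b * ‖x‖)
    (hσ : ∀ p q : Fin k → ℕ, (∀ j, p₀ ≤ p j) → (∀ j, p j ≤ q j) →
      (∀ i j, i < j → q i ≤ p j ∧ g' (q i) ≤ p j) → ∀ v : Fin k → X,
      (∀ j, ‖v j‖ ≤ 1) → (∀ j, P (q j) (v j) - P (p j) (v j) = v j) → ‖∑ j, v j‖ ≤ σ)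
    (hlt : a * σ / k + ((k : ℝ) - 1) * b < k)
    (C : Set X) (hCne : C.Nonempty) (hCcl : IsClosed C) (hCb : Bornology.IsBounded C)
    (hCconv : Convex ℝ C) (T : X → X) (hT : MapsTo T C C)
    (hne : ∀ x ∈ C, ∀ y ∈ C, ‖T x - T y‖ ≤ ‖x - y‖) :
    ∃ x ∈ C, T x = x := by
  obtain ⟨K, hKC, ⟨c₁, hc₁⟩, hKcl, hKconv, hKT, hmin⟩ :=
    exists_minimal_invariant href C hCne hCcl hCb hCconv T hT
  by_contra hno
  push Not at hno
  have hneK : ∀ x ∈ K, ∀ y ∈ K, ‖T x - T y‖ ≤ ‖x - y‖ :=
    fun x hx y hy => hne x (hKC hx) y (hKC hy)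
  have hKb : Bornology.IsBounded K := hCb.subset hKC
  set d := diam K with hd_def
  have hle : ∀ x ∈ K, ∀ y ∈ K, ‖x - y‖ ≤ d := fun x hx y hy => by
    rw [← dist_eq_norm]; exact dist_le_diam_of_mem hKb hx hy
  have hd : 0 < d := by
    refine lt_of_lt_of_le ?_ (hle _ (hKT hc₁) _ hc₁)
    exact norm_pos_iff.mpr (sub_ne_zero.mpr (hno c₁ (hKC hc₁)))
  -- an approximate fixed point sequence
  have hxex : ∀ n : ℕ, ∃ x ∈ K, ‖T x - x‖ ≤ 1 / ((n : ℝ) + 1) * d := by
    intro n
    obtain ⟨R, hRK, -, hRT, -⟩ := exists_resolvent hKcl hKconv hKT hneK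
      (s := 1 / ((n : ℝ) + 1)) (by positivity)
      (by rw [div_le_one (by positivity)]; simp)
    exact ⟨R c₁, hRK hc₁, (hRT c₁ hc₁).trans
      (mul_le_mul_of_nonneg_left (hle _ (hKT (hRK hc₁)) _ hc₁) (by positivity))⟩
  choose x hxK hxT using hxex
  obtain ⟨U, hU⟩ := Ultrafilter.exists_le (atTop : Filter ℕ)
  obtain ⟨M, hM⟩ := hKb.exists_norm_le
  obtain ⟨x₀, hx₀⟩ := exists_weakLim href U x M fun n => hM _ (hxK n)
  have hx₀K : x₀ ∈ K := weakLim_mem hx₀ hKcl hKconv (Eventually.of_forall hxK)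
  have hy : ∀ φ : StrongDual ℝ X, Tendsto (fun i => φ (x i - x₀)) U (𝓝 (φ 0)) := by
    intro φ
    simpa using (hx₀ φ).sub_const (φ x₀)
  -- parameters
  have hσ0 : 0 ≤ σ := by
    let t : ℕ → ℕ := fun n => Nat.rec p₀ (fun _ x => max x (g' x)) n
    have ht : Monotone t := monotone_nat_of_le_succ fun n => le_max_left _ _
    simpa using hσ (fun j => t j) (fun j => t j) (fun j => ht (Nat.zero_le _)) (fun _ => le_rfl)
      (fun i j (hij : (i : ℕ) < j) => ⟨ht hij.le, (le_max_right _ _).trans (ht hij)⟩)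
      0 (fun _ => by simp) (fun _ => by simp)
  have hkR : (1 : ℝ) ≤ k := by exact_mod_cast hk
  have hk0 : (0 : ℝ) < k := by linarith
  set g : ℝ := k - (a * σ / k + ((k : ℝ) - 1) * b) with hg_def
  have hg : 0 < g := by rw [hg_def]; linarith
  set N : ℝ := 3 * σ + k * b + 3 * k with hN
  have hN0 : 0 < N := by positivity
  set η : ℝ := g * d / (2 * N) with hη_def
  have hη : 0 < η := by positivity
  obtain ⟨δ, hδ, hGK⟩ := goebel_karlovitz href hKcl hKb hKconv hKT hmin hneK hx₀K hη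
  set s : ℝ := min (δ / d) 1 with hs_def
  have hs : 0 < s := lt_min (div_pos hδ hd) one_pos
  have hsd : s * d ≤ δ := by
    calc s * d ≤ δ / d * d := mul_le_mul_of_nonneg_right (min_le_left _ _) hd.le
      _ = δ := div_mul_cancel₀ _ hd.ne'
  obtain ⟨R, hRK, hRne, hRT, hRx⟩ :=
    exists_resolvent hKcl hKconv hKT hneK hs (min_le_right _ _)
  let G : Set ℕ := {n | ‖T (x n) - x n‖ ≤ s * η}
  have hG : G ∈ U := by
    have h0 : Tendsto (fun n : ℕ => 1 / ((n : ℝ) + 1) * d) atTop (𝓝 0) := by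
      simpa using (tendsto_one_div_add_atTop_nhds_zero_nat (𝕜 := ℝ)).mul_const d
    exact hU ((h0.eventually (eventually_le_nhds (mul_pos hs hη))).mono
      fun n hn => (hxT n).trans hn)
  -- the averaged points
  let Z : Fin k → (Fin k → ℕ) → X :=
    fun j n => (k : ℝ)⁻¹ • ∑ l, Function.update (fun l => x (n l)) j x₀ l
  have hsum : ∑ _l : Fin k, (k : ℝ)⁻¹ = 1 := by
    simp [hk0.ne']
  have hZK : ∀ j n, Z j n ∈ K := by
    intro j n
    simp only [Z, Finset.smul_sum]
    refine hKconv.sum_mem (fun _ _ => by positivity) hsum fun l _ => ?_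
    by_cases h : l = j
    · subst h; simpa using hx₀K
    · simpa [h] using hxK (n l)
  obtain ⟨n, -, p, q, hp, hpq, hord, hj⟩ := select href P hfin hP U (fun i => x i - x₀) hy G hG η hη g'
    k p₀ (fun j n => R (Z j n) - x₀) d (fun j n => hle _ (hRK (hZK j n)) _ hx₀K)
    (fun j n i => by
      have : (fun l => x (Function.update n j i l)) =
          Function.update (fun l => x (n l)) j (x i) := by
        funext l
        by_cases h : l = j
        · subst h; simp
        · simp [h]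
      simp only [Z, this, Function.update_idem])
    univ univ_mem
  let W : X := (k : ℝ)⁻¹ • ∑ l, x (n l)
  have hWK : W ∈ K := by
    simp only [W, Finset.smul_sum]
    exact hKconv.sum_mem (fun _ _ => by positivity) hsum fun l _ => hxK (n l)
  let u : X := R W - x₀
  have hu : d - η ≤ ‖u‖ :=
    hGK _ (hRK hWK) ((hRT W hWK).trans
      ((mul_le_mul_of_nonneg_left (hle _ (hKT (hRK hWK)) _ hWK) hs.le).trans hsd))
  let D : Fin k → X →L[ℝ] X := fun j => P (q j) - P (p j)
  set A : ℝ := a * (d / k) + 3 * η with hA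
  have hA0 : 0 < A := by positivity
  set B : ℝ := b * (((k : ℝ) - 1) / k * d + η) + 2 * η with hB
  have hblock : ∀ j, ‖D j u‖ ≤ A ∧ ‖u - D j u‖ ≤ B := by
    intro j
    obtain ⟨hjG, hjp, hjq, hjz⟩ := hj j
    have hWZ : ‖W - Z j n‖ ≤ d / k := by
      simp only [W, Z, ← smul_sub, ← Finset.sum_sub_distrib]
      rw [Finset.sum_eq_single j (fun l _ h => by simp [h]) (by simp), Function.update_self,
        norm_smul, norm_inv, Real.norm_natCast, div_eq_inv_mul]
      exact mul_le_mul_of_nonneg_left (hle _ (hxK _) _ hx₀K) (by positivity)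
    have hWx : ‖W - x (n j)‖ ≤ ((k : ℝ) - 1) / k * d := by
      have : W - x (n j) = (k : ℝ)⁻¹ • ∑ l, (x (n l) - x (n j)) := by
        simp only [W, Finset.sum_sub_distrib, smul_sub, Finset.sum_const, Finset.card_univ,
          Fintype.card_fin, ← Nat.cast_smul_eq_nsmul ℝ, smul_smul, inv_mul_cancel₀ hk0.ne',
          one_smul]
      rw [this, norm_smul, norm_inv, Real.norm_natCast,
        ← Finset.sum_erase_add _ _ (Finset.mem_univ j), sub_self, add_zero]
      calc (k : ℝ)⁻¹ * ‖∑ l ∈ Finset.univ.erase j, (x (n l) - x (n j))‖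
          ≤ (k : ℝ)⁻¹ * ∑ _l ∈ Finset.univ.erase j, d := by
            gcongr
            exact norm_sum_le_of_le _ fun l _ => hle _ (hxK _) _ (hxK _)
        _ = ((k : ℝ) - 1) / k * d := by
            rw [Finset.sum_const, Finset.card_erase_of_mem (Finset.mem_univ j), Finset.card_univ,
              Fintype.card_fin, nsmul_eq_mul, Nat.cast_sub hk]
            push_cast
            ring
    have hRxn : ‖R (x (n j)) - x (n j)‖ ≤ η :=
      le_of_mul_le_mul_left ((hRx _ (hxK _)).trans hjG) hs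
    have hwz : ‖R W - R (Z j n)‖ ≤ d / k := (hRne _ hWK _ (hZK j n)).trans hWZ
    have hwx : ‖R W - x (n j)‖ ≤ ((k : ℝ) - 1) / k * d + η :=
      (norm_sub_le_norm_sub_add_norm_sub _ (R (x (n j))) _).trans
        (add_le_add ((hRne _ hWK _ (hxK _)).trans hWx) hRxn)
    constructor
    · have e : D j u = D j (R W - R (Z j n)) + D j (R (Z j n) - x₀) := by
        rw [← map_add]; congr 1; simp only [u]; abel
      rw [e]
      refine (norm_add_le _ _).trans (add_le_add ?_ hjz)
      exact (hPa _ _ (hp j) (hpq j) _).trans (mul_le_mul_of_nonneg_left hwz ha)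
    · have e : u - D j u = ((R W - x (n j)) - D j (R W - x (n j))) +
          (((x (n j) - x₀) - P (q j) (x (n j) - x₀)) + P (p j) (x (n j) - x₀)) := by
        simp only [u, D, sub_apply, map_sub]; abel
      rw [e]
      refine (norm_add_le _ _).trans (add_le_add ?_ ?_)
      · exact (hPb _ _ (hp j) (hpq j) _).trans (mul_le_mul_of_nonneg_left hwx hb)
      · refine (norm_add_le _ _).trans ?_
        linarith
  -- the final estimate
  obtain ⟨φ, hφ, hφu⟩ := exists_dual_vector'' ℝ u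
  have hφle : ∀ z, φ z ≤ ‖z‖ := fun z =>
    (le_abs_self _).trans (((φ.le_opNorm z).trans
      (mul_le_mul_of_nonneg_right hφ (norm_nonneg _))).trans_eq (one_mul _))
  have hidem : ∀ j z, P (q j) (D j z) - P (p j) (D j z) = D j z := by
    intro j z
    simp only [D, sub_apply, map_sub, hcomm, min_self, min_eq_left (hpq j),
      min_eq_right (hpq j)]
    abel
  have hS : ‖∑ j, D j u‖ ≤ A * σ := by
    have h1 := hσ p q hp hpq hord (fun j => A⁻¹ • D j u)
      (fun j => by
        rw [norm_smul, norm_inv, Real.norm_of_nonneg hA0.le]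
        exact (mul_le_mul_of_nonneg_left (hblock j).1 (by positivity)).trans_eq
          (inv_mul_cancel₀ hA0.ne'))
      (fun j => by simp only [map_smul, ← smul_sub, hidem])
    rw [← Finset.smul_sum, norm_smul, norm_inv, Real.norm_of_nonneg hA0.le,
      inv_mul_le_iff₀ hA0] at h1
    exact h1
  have hmain : (k : ℝ) * ‖u‖ ≤ A * σ + k * B := by
    have h1 : ∀ j, φ u ≤ φ (D j u) + B := fun j => by
      have := hφle (u - D j u)
      rw [map_sub] at this
      linarith [(hblock j).2]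
    have h2 : ∑ _j : Fin k, φ u ≤ ∑ j, (φ (D j u) + B) := Finset.sum_le_sum fun j _ => h1 j
    rw [Finset.sum_add_distrib] at h2
    simp only [Finset.sum_const, Finset.card_univ, Fintype.card_fin, nsmul_eq_mul] at h2
    rw [← map_sum] at h2
    have h3 := hφle (∑ j, D j u)
    have h4 : φ u = ‖u‖ := hφu
    rw [h4] at h2
    linarith
  have hlow : (k : ℝ) * (d - η) ≤ k * ‖u‖ := mul_le_mul_of_nonneg_left hu hk0.le
  have e1 : A * σ + k * B + k * η = (k - g) * d + η * N := by
    rw [hA, hB, hg_def, hN]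
    field_simp
    ring
  have e2 : η * N = g * d / 2 := by
    rw [hη_def]
    field_simp
  nlinarith [mul_pos hg hd]

end Vale.Agent.P079
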